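import Vale.Agent.Lib.P012_helper15.QuasiOrth
import Vale.Agent.Lib.P012_helper28.LargeValues

namespace Vale.Agent.Lib.P012
open Finset
variable {ι : Type} [Fintype ι] [DecidableEq ι]

theorem card_char_le (q : ℕ) (hq : q.Prime) :
    Fintype.card (DirichletCharacter ℂ q) ≤ q := by
  have : NeZero q := ⟨hq.ne_zero⟩
  have h := DirichletCharacter.card_eq_totient_of_hasEnoughRootsOfUnity ℂ q
  rw [Nat.card_eq_fintype_card] at h
  rw [h]
  exact Nat.totient_le q

open Classical in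
theorem inner_sum_le (q : ℕ) (hq : q.Prime) (X : ℕ) (hX : q ≤ X) (w : ℝ) (hw : 0 ≤ w) :
    ∑ ψ : DirichletCharacter ℂ q, (if ψ = 1 then (1 : ℝ) else w) ≤ 1 + X * w := by
  have h1 : ∑ ψ : DirichletCharacter ℂ q, (if ψ = 1 then (1 : ℝ) else w)
      ≤ ∑ ψ : DirichletCharacter ℂ q, ((if ψ = 1 then (1 : ℝ) else 0) + w) := by
    apply Finset.sum_le_sum
    intro ψ _
    split_ifs <;> linarith
  rw [Finset.sum_add_distrib, Finset.sum_ite_eq' ] at h1
  simp only [Finset.mem_univ, if_true, Finset.sum_const, Finset.card_univ, nsmul_eq_mul] at h1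
  have h2 : (Fintype.card (DirichletCharacter ℂ q) : ℝ) ≤ X := by
    exact_mod_cast (card_char_le q hq).trans hX
  nlinarith

omit [DecidableEq ι] in
open Classical in
theorem pow_supp_card (p : ι → ℕ) (χ : Sys p) (w : ℝ) :
    w ^ (supp χ).card = ∏ a, (if χ a = 1 then (1 : ℝ) else w) := by
  unfold supp
  rw [← Finset.prod_const, Finset.prod_filter]
  apply Finset.prod_congr rfl
  intro a _
  by_cases h : χ a = 1 <;> simp [h]

theorem sum_weight_le (p : ι → ℕ) (hp : ∀ a, (p a).Prime) (X : ℕ) (hX : ∀ a, p a ≤ X)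
    (w : ℝ) (hw : 0 ≤ w) :
    ∑ χ : Sys p, w ^ (supp χ).card ≤ Real.exp (X * w * Fintype.card ι) := by
  classical
  have h1 : ∑ χ : Sys p, w ^ (supp χ).card
      = ∏ a, ∑ ψ : DirichletCharacter ℂ (p a), (if ψ = 1 then (1 : ℝ) else w) := by
    rw [Finset.prod_univ_sum, Fintype.piFinset_univ]
    apply Finset.sum_congr rfl
    intro χ _
    rw [pow_supp_card]
  rw [h1]
  calc ∏ a, ∑ ψ : DirichletCharacter ℂ (p a), (if ψ = 1 then (1 : ℝ) else w)
      ≤ ∏ _a : ι, Real.exp (X * w) := by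
        apply Finset.prod_le_prod
        · intro a _
          apply Finset.sum_nonneg
          intro ψ _
          split_ifs <;> linarith
        · intro a _
          refine (inner_sum_le (p a) (hp a) X (hX a) w hw).trans ?_
          have := Real.add_one_le_exp ((X : ℝ) * w)
          linarith
    _ = Real.exp (X * w * Fintype.card ι) := by
        rw [Finset.prod_const, Finset.card_univ, ← Real.exp_nat_mul]
        ring_nf

theorem ev_prod (p : ι → ℕ) (χ : Sys p) {α : Type} (s : Finset α) (g : α → ℕ) :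
    ev χ (∏ k ∈ s, g k) = ∏ k ∈ s, ev χ (g k) := by
  classical
  induction s using Finset.induction_on with
  | empty => simp [ev_one_right]
  | insert a s ha ih => rw [Finset.prod_insert ha, Finset.prod_insert ha, ev_mul, ih]

omit [DecidableEq ι] in
theorem card_le_X (p : ι → ℕ) (hp : ∀ a, (p a).Prime) (hinj : Function.Injective p)
    (X : ℕ) (hX : ∀ a, p a ≤ X) : Fintype.card ι ≤ X := by
  have h : (Finset.univ.image p).card ≤ (Finset.Icc 1 X).card := Finset.card_le_card (by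
    intro n hn
    obtain ⟨a, _, rfl⟩ := Finset.mem_image.mp hn
    exact Finset.mem_Icc.mpr ⟨(hp a).one_lt.le, hX a⟩)
  rw [Finset.card_image_of_injective _ hinj, Nat.card_Icc] at h
  simpa using h

open Classical in
theorem card_F_le (p : ι → ℕ) (hp : ∀ a, (p a).Prime) (hinj : Function.Injective p)
    (X : ℕ) (hX : ∀ a, p a ≤ X) (i : ℕ) (hne : Nonempty ι) :
    (((univ : Finset (Sys p)).filter (fun χ => (supp χ).card = i)).card : ℝ)
      ≤ 3 * (X : ℝ) ^ (2 * i) := by
  obtain ⟨a0⟩ := hne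
  have hpi : 0 < Fintype.card ι := Fintype.card_pos_iff.mpr ⟨a0⟩
  have hX0 : 0 < X := lt_of_lt_of_le (hp a0).pos (hX a0)
  have hpiX : Fintype.card ι ≤ X := card_le_X p hp hinj X hX
  have hpiR : (0 : ℝ) < Fintype.card ι := by exact_mod_cast hpi
  have hXR : (0 : ℝ) < X := by exact_mod_cast hX0
  have hpiXR : (Fintype.card ι : ℝ) ≤ X := by exact_mod_cast hpiX
  set w : ℝ := 1 / ((X : ℝ) * Fintype.card ι) with hw
  have hwpos : 0 < w := by positivity
  have h1 := sum_weight_le p hp X hX w hwpos.le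
  have h2 : (X : ℝ) * w * Fintype.card ι = 1 := by
    rw [hw]; field_simp
  rw [h2] at h1
  have h3 : Real.exp 1 ≤ 3 := by
    have := Real.exp_one_lt_d9
    linarith
  have h4 : ∑ χ ∈ (univ : Finset (Sys p)).filter (fun χ => (supp χ).card = i),
      w ^ (supp χ).card ≤ ∑ χ : Sys p, w ^ (supp χ).card := by
    apply Finset.sum_le_sum_of_subset_of_nonneg (Finset.filter_subset _ _)
    intro χ _ _
    positivity
  have h5 : ∑ χ ∈ (univ : Finset (Sys p)).filter (fun χ => (supp χ).card = i),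
      w ^ (supp χ).card
      = (((univ : Finset (Sys p)).filter (fun χ => (supp χ).card = i)).card : ℝ) * w ^ i := by
    rw [Finset.sum_congr rfl (g := fun _ => w ^ i)]
    · rw [Finset.sum_const, nsmul_eq_mul]
    · intro χ hχ
      rw [(Finset.mem_filter.mp hχ).2]
  have h6 : (((univ : Finset (Sys p)).filter (fun χ => (supp χ).card = i)).card : ℝ) * w ^ i
      ≤ 3 := by
    rw [← h5]; linarith
  have h7 : w ^ i * ((X : ℝ) * Fintype.card ι) ^ i = 1 := by
    rw [← mul_pow, hw]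
    have : 1 / ((X : ℝ) * Fintype.card ι) * ((X : ℝ) * Fintype.card ι) = 1 := by
      field_simp
    rw [this, one_pow]
  have h8 : ((X : ℝ) * Fintype.card ι) ^ i ≤ (X : ℝ) ^ (2 * i) := by
    rw [pow_mul, sq]
    apply pow_le_pow_left₀ (by positivity)
    exact mul_le_mul_of_nonneg_left hpiXR hXR.le
  have h9 : (0 : ℝ) ≤ ((X : ℝ) * Fintype.card ι) ^ i := by positivity
  calc (((univ : Finset (Sys p)).filter (fun χ => (supp χ).card = i)).card : ℝ)
      = (((univ : Finset (Sys p)).filter (fun χ => (supp χ).card = i)).card : ℝ)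
          * (w ^ i * ((X : ℝ) * Fintype.card ι) ^ i) := by rw [h7, mul_one]
    _ = ((((univ : Finset (Sys p)).filter (fun χ => (supp χ).card = i)).card : ℝ) * w ^ i)
          * ((X : ℝ) * Fintype.card ι) ^ i := by ring
    _ ≤ 3 * ((X : ℝ) * Fintype.card ι) ^ i := mul_le_mul_of_nonneg_right h6 h9
    _ ≤ 3 * (X : ℝ) ^ (2 * i) := by linarith

theorem sum_tuples (p : ι → ℕ) (χ : Sys p) (l : ℕ) :
    ∑ ρ : Fin l → ι, ev χ (∏ k, p (ρ k)) = (∑ a, ev χ (p a)) ^ l := by
  rw [Fintype.sum_pow]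
  apply Finset.sum_congr rfl
  intro ρ _
  rw [ev_prod]

open Classical in
theorem bad_count (p : ι → ℕ) (hp : ∀ a, (p a).Prime) (hinj : Function.Injective p)
    (X : ℕ) (hX : ∀ a, p a ≤ X) (i : ℕ) (hi : 1 ≤ i) :
    (((univ : Finset (Sys p)).filter (fun χ => (supp χ).card = i ∧ bad χ)).card : ℝ)
      ≤ 5 * (4 * i).factorial * (4 * X / Fintype.card ι) ^ (4 * i) := by
  by_cases hne : Nonempty ι
  swap
  · -- no index: the support is always empty
    have hemp : IsEmpty ι := not_nonempty_iff.mp hne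
    have : (univ : Finset (Sys p)).filter (fun χ => (supp χ).card = i ∧ bad χ) = ∅ := by
      apply Finset.filter_eq_empty_iff.mpr
      intro χ _ h
      have h0 : (supp χ).card = 0 := by
        rw [Finset.card_eq_zero]
        exact Finset.eq_empty_of_isEmpty _
      omega
    rw [this]
    simp only [Finset.card_empty, Nat.cast_zero]
    positivity
  obtain ⟨a0⟩ := id hne
  have hpi : 0 < Fintype.card ι := Fintype.card_pos_iff.mpr ⟨a0⟩
  have hX0 : 0 < X := lt_of_lt_of_le (hp a0).pos (hX a0)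
  have hpiR : (0 : ℝ) < Fintype.card ι := by exact_mod_cast hpi
  have hXR : (1 : ℝ) ≤ X := by exact_mod_cast hX0
  set F : Finset (Sys p) := (univ : Finset (Sys p)).filter (fun χ => (supp χ).card = i) with hF
  set Bd : Finset (Sys p) :=
    (univ : Finset (Sys p)).filter (fun χ => (supp χ).card = i ∧ bad χ) with hBd
  have hFcard : (F.card : ℝ) ≤ 3 * (X : ℝ) ^ (2 * i) := card_F_le p hp hinj X hX i hne
  have hLV := large_values F (fun χ n => ev χ n) (X ^ (4 * i) + 1) ((X : ℝ) ^ (2 * i))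
    (by positivity) (fun χ _ n => norm_ev_le_one p χ n)
    (fun χ hχ χ' hχ' hne' => quasi_orth p hp hinj X hX χ χ' hne' i
      (Finset.mem_filter.mp hχ).2.le (Finset.mem_filter.mp hχ').2.le _)
    (univ : Finset (Fin (4 * i) → ι)) (fun ρ => ∏ k, p (ρ k))
    (fun ρ _ => by
      have : ∏ k, p (ρ k) ≤ ∏ _k : Fin (4 * i), X :=
        Finset.prod_le_prod' (fun k _ => hX (ρ k))
      rw [Finset.prod_const, Finset.card_univ, Fintype.card_fin] at this
      omega)
    (4 * i).factorial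
    (fun n => fiber_le p hp hinj (4 * i) n)
  simp only [sum_tuples, norm_pow, Finset.card_univ, Fintype.card_fun, Fintype.card_fin] at hLV
  -- lower bound for the left side
  have hsub : Bd ⊆ F := by
    intro χ hχ
    exact Finset.mem_filter.mpr ⟨Finset.mem_univ _, (Finset.mem_filter.mp hχ).2.1⟩
  have hlow : (Bd.card : ℝ) * ((Fintype.card ι : ℝ) / 2) ^ (8 * i)
      ≤ ∑ χ ∈ F, (‖∑ a, ev χ (p a)‖ ^ (4 * i)) ^ 2 := by
    calc (Bd.card : ℝ) * ((Fintype.card ι : ℝ) / 2) ^ (8 * i)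
        = ∑ _χ ∈ Bd, ((Fintype.card ι : ℝ) / 2) ^ (8 * i) := by
          rw [Finset.sum_const, nsmul_eq_mul]
      _ ≤ ∑ χ ∈ Bd, (‖∑ a, ev χ (p a)‖ ^ (4 * i)) ^ 2 := by
          apply Finset.sum_le_sum
          intro χ hχ
          have hb : (Fintype.card ι : ℝ) / 2 < ‖∑ a, ev χ (p a)‖ := (Finset.mem_filter.mp hχ).2.2
          rw [← pow_mul]
          have : 4 * i * 2 = 8 * i := by ring
          rw [this]
          exact pow_le_pow_left₀ (by positivity) hb.le _
      _ ≤ ∑ χ ∈ F, (‖∑ a, ev χ (p a)‖ ^ (4 * i)) ^ 2 := by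
          apply Finset.sum_le_sum_of_subset_of_nonneg hsub
          intro χ _ _
          positivity
  -- upper bound for the right side
  have hX4 : (1 : ℝ) ≤ (X : ℝ) ^ (4 * i) := one_le_pow₀ hXR
  have hX22 : (X : ℝ) ^ (2 * i) * (X : ℝ) ^ (2 * i) = (X : ℝ) ^ (4 * i) := by
    rw [← pow_add]; congr 1; ring
  have hup : (((X ^ (4 * i) + 1 : ℕ) : ℝ) + (F.card : ℝ) * (X : ℝ) ^ (2 * i))
      ≤ 5 * (X : ℝ) ^ (4 * i) := by
    have h1 : (F.card : ℝ) * (X : ℝ) ^ (2 * i) ≤ 3 * (X : ℝ) ^ (4 * i) := by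
      calc (F.card : ℝ) * (X : ℝ) ^ (2 * i) ≤ (3 * (X : ℝ) ^ (2 * i)) * (X : ℝ) ^ (2 * i) :=
            mul_le_mul_of_nonneg_right hFcard (by positivity)
        _ = 3 * (X : ℝ) ^ (4 * i) := by rw [mul_assoc, hX22]
    push_cast
    linarith
  have hmain : (Bd.card : ℝ) * ((Fintype.card ι : ℝ) / 2) ^ (8 * i)
      ≤ ((4 * i).factorial : ℝ) * ((Fintype.card ι : ℝ) ^ (4 * i)) * (5 * (X : ℝ) ^ (4 * i)) := by
    refine hlow.trans (hLV.trans ?_)
    push_cast
    push_cast at hup
    apply mul_le_mul_of_nonneg_left hup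
    positivity
  have hc : (0 : ℝ) < ((Fintype.card ι : ℝ) / 2) ^ (8 * i) := by positivity
  apply le_of_mul_le_mul_right _ hc
  refine hmain.trans (le_of_eq ?_)
  have e1 : ((Fintype.card ι : ℝ) / 2) ^ (8 * i)
      = (((Fintype.card ι : ℝ) / 2) ^ 2) ^ (4 * i) := by
    rw [← pow_mul]; congr 1; ring
  rw [e1, mul_assoc (5 * ((4 * i).factorial : ℝ)), ← mul_pow]
  have e2 : 4 * (X : ℝ) / (Fintype.card ι : ℝ) * ((Fintype.card ι : ℝ) / 2) ^ 2
      = (Fintype.card ι : ℝ) * X := by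
    field_simp
    ring
  rw [e2, mul_pow]
  ring

end Vale.Agent.Lib.P012
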